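import Vale.Agent.P180.R2.H259.Exp.LevD
import Vale.Agent.P180.R2.H259.Exp.Dse

/-!
P180: Lemma N. The bound `OneBd` passes from a finite group to a normal subgroup with cyclic quotient
of order prime to `p`, in particular from `GL(V)` to `SL(V)`.
-/

set_option linter.all false

namespace Vale.Agent.P180.H396

open Vale.Agent.P180 Vale.Agent.P180.H768.Gd
open Vale.Agent.P180.R2.H471.Hc (OneBd oneBd_quot)
open Vale.Agent.P180.R2.H259.Exp (oneBd_ker)

universe u

variable {k : Type u} [Field k] [IsAlgClosed k] {p : ℕ} [Fact p.Prime] [CharP k p]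

/-- `OneBd` passes from `G` to a group embedded as the kernel of a linear character. -/
theorem oneBd_emb {S G : Type} [Group S] [Finite S] [Group G] [Finite G] (j : S →* G)
    (hj : Function.Injective j) (χ : G →* kˣ) (hχ : χ.ker = j.range) {Q : Subgroup S}
    (hQ : IsPGroup p Q) {C : ℕ} (h : OneBd k (Q.map j) C) :
    OneBd k Q ((Nat.card Q).factorial * C) := by
  classical
  have hp : p.Prime := Fact.out
  set e : S ≃* j.range := MonoidHom.ofInjective hj with he
  have hes : ∀ x, ((e x : j.range) : G) = j x := fun x => rfl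
  set Q1 : Subgroup j.range := Q.map e.toMonoidHom with hQ1
  have hmap : Q1.map j.range.subtype = Q.map j := by
    rw [hQ1, Subgroup.map_map]
    congr 1
  have hcard : Nat.card Q1 = Nat.card Q :=
    (Nat.card_congr (Q.equivMapOfInjective e.toMonoidHom e.injective).toEquiv).symm
  have hker := oneBd_ker (k := k) (p := p) χ hχ (Q := Q1) (hQ.map _) (by rw [hmap]; exact h)
  rw [hcard] at hker
  have hinj : ∀ x, e.symm.toMonoidHom x = 1 → x = 1 := by
    intro x hx
    exact e.symm.injective (by rw [map_one]; exact hx)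
  have hk : e.symm.toMonoidHom.ker = ⊥ := by
    rw [eq_bot_iff]
    intro x hx
    exact Subgroup.mem_bot.mpr (hinj x (MonoidHom.mem_ker.mp hx))
  have hfin := oneBd_quot (k := k) (p := p) (q := e.symm.toMonoidHom) e.symm.surjective
    (fun x hx g => by rw [hinj x hx, one_mul, mul_one])
    (by
      rw [hk, Subgroup.card_bot]
      exact hp.one_lt.not_ge ∘ Nat.le_of_dvd Nat.one_pos) (hQ.map _) hker
  have hQ2 : Q1.map e.symm.toMonoidHom = Q := by
    rw [hQ1, Subgroup.map_map]
    have : e.symm.toMonoidHom.comp e.toMonoidHom = MonoidHom.id S := by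
      ext x
      exact e.symm_apply_apply x
    rw [this, Subgroup.map_id]
  rw [hQ2] at hfin
  exact hfin

/-- **Lemma N.** `OneBd` passes to a normal subgroup with cyclic quotient of order prime to `p`. -/
theorem oneBd_normal {G : Type} [Group G] [Finite G] {S : Subgroup G} [S.Normal] [IsCyclic (G ⧸ S)]
    (hS : ¬ p ∣ S.index) {Q : Subgroup S} (hQ : IsPGroup p Q) {C : ℕ}
    (h : OneBd k (Q.map S.subtype) C) : OneBd k Q ((Nat.card Q).factorial * C) := by
  classical
  set t := Nat.card (G ⧸ S) with ht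
  have ht0 : (t : k) ≠ 0 := fun h => hS ((CharP.cast_eq_zero_iff k p t).mp h)
  have hNZ : NeZero (t : k) := ⟨ht0⟩
  have hNZ' : NeZero t := ⟨Nat.card_pos.ne'⟩
  have hcard : Nat.card (rootsOfUnity t k) = t := HasEnoughRootsOfUnity.natCard_rootsOfUnity k t
  have hcyc : IsCyclic (rootsOfUnity t k) := rootsOfUnity.isCyclic k t
  let ε : (G ⧸ S) ≃* rootsOfUnity t k := mulEquivOfCyclicCardEq (ht.symm.trans hcard.symm)
  refine oneBd_ker (k := k) (p := p)
    ((rootsOfUnity t k).subtype.comp (ε.toMonoidHom.comp (QuotientGroup.mk' S))) ?_ hQ h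
  ext g
  rw [MonoidHom.mem_ker]
  constructor
  · intro h
    have h1 : ε (QuotientGroup.mk' S g) = 1 := Subtype.ext h
    have h2 : QuotientGroup.mk' S g = 1 := ε.injective (by rw [h1, map_one])
    exact (QuotientGroup.eq_one_iff g).mp h2
  · intro h
    have h1 : QuotientGroup.mk' S g = 1 := (QuotientGroup.eq_one_iff g).mpr h
    change ((ε (QuotientGroup.mk' S g) : rootsOfUnity t k) : kˣ) = 1
    rw [h1, map_one]
    rfl

section SL

variable {F V : Type} [Field F] [Finite F] [AddCommGroup V] [Module F V]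

omit [Finite F] in
theorem range_toLinearEquiv : (SpecialLinearGroup.toLinearEquiv (R := F) (V := V)).range =
    (LinearEquiv.det : (V ≃ₗ[F] V) →* Fˣ).ker := by
  ext g
  rw [MonoidHom.mem_ker]
  constructor
  · rintro ⟨x, rfl⟩
    exact x.2
  · intro h
    exact ⟨⟨g, h⟩, rfl⟩

/-- **From the general linear group to a group embedded as the special linear group**, `p ∤ q - 1`. -/
theorem oneBd_sl_emb [Finite (V ≃ₗ[F] V)] {S : Type} [Group S] [Finite S]
    (j : S →* (V ≃ₗ[F] V)) (hj : Function.Injective j)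
    (hr : j.range = (LinearEquiv.det : (V ≃ₗ[F] V) →* Fˣ).ker)
    (hq : ¬ p ∣ Nat.card F - 1) {Q : Subgroup S} (hQ : IsPGroup p Q) {C : ℕ}
    (h : OneBd k (Q.map j) C) : OneBd k Q ((Nat.card Q).factorial * C) := by
  obtain ⟨χ, hχ⟩ := Vale.Agent.P180.R2.H259.Exp.exists_chi (k := k) (p := p) (LinearEquiv.det : (V ≃ₗ[F] V) →* Fˣ) hq
    (fun g => by
      rw [← Nat.card_units]
      exact pow_card_eq_one')
  exact oneBd_emb j hj χ (hχ.trans hr.symm) hQ h

/-- **From the general to the special linear group**, `p ∤ q - 1`. -/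
theorem oneBd_sl [Finite (V ≃ₗ[F] V)] [Finite (SpecialLinearGroup F V)]
    (hq : ¬ p ∣ Nat.card F - 1) {Q : Subgroup (SpecialLinearGroup F V)} (hQ : IsPGroup p Q) {C : ℕ}
    (h : OneBd k (Q.map SpecialLinearGroup.toLinearEquiv) C) :
    OneBd k Q ((Nat.card Q).factorial * C) :=
  oneBd_sl_emb _ SpecialLinearGroup.toLinearEquiv_injective range_toLinearEquiv hq hQ h

end SL

end Vale.Agent.P180.H396
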