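import Vale.Agent.P180.H396.GeoE
import Vale.Agent.P180.H392.IndDef

/-!
P180 H396: the existence of the decomposition, in the form used by the induction.
-/

set_option linter.all false

namespace Vale.Agent.P180.H396

open Module Vale.Agent.P180.R2.H854 Vale.Agent.P180.H392

/-- **Existence of the decomposition.** -/
theorem pdEx : PdExStmt := by
  intro p hp K _ _ E _ _ _ Φ Q hok hQG hQp hab
  exact exists_pd hp.out hok.2.1 hok.2.2 hQG hQp hab

end Vale.Agent.P180.H396
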