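import Vale.Agent.P180.H393.Fm
import Vale.Agent.P180.H951.Dec

/-!
P180 H396: the stabilizer of a hyperbolic pair: `GL` times the isometry group of the complement.
-/

set_option linter.all false

namespace Vale.Agent.P180.H396

open Module Vale.Agent.P180.R2.H854 Vale.Agent.P180.H393.Fm

section hyp

variable {K E : Type} [Field K] [AddCommGroup E] [Module K E] {Φ : HForm K E}

theorem inv_app (g : E ≃ₗ[K] E) (v : E) : g⁻¹ (g v) = v := LinearEquiv.symm_apply_apply g v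

theorem app_inv (g : E ≃ₗ[K] E) (v : E) : g (g⁻¹ v) = v := LinearEquiv.apply_symm_apply g v

/-- **A hyperbolic pair from an idempotent.** -/
theorem exists_hyp [FiniteDimensional K E] [Finite K] {e : End K E} (he : e * e = e)
    (h1 : Φ.adj e * e = 0) (h2 : e * Φ.adj e = 0) :
    ∃ P : Hyp Φ (Fin (finrank K (LinearMap.range e))), (∀ v, P.x (P.px v) = e v) ∧
      ∀ v, P.y (P.py v) = Φ.adj e v := by
  classical
  set X := LinearMap.range e with hX
  let b : Basis (Fin (finrank K X)) K X := Module.finBasis K X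
  let eX : E →ₗ[K] X := e.rangeRestrict
  have heX : ∀ v, ((eX v : X) : E) = e v := fun v => rfl
  have hee : ∀ v, e (e v) = e v := fun v => congrArg (fun a : End K E => a v) he
  have hh1 : ∀ v, Φ.adj e (e v) = 0 := fun v => congrArg (fun a : End K E => a v) h1
  have hh2 : ∀ v, e (Φ.adj e v) = 0 := fun v => congrArg (fun a : End K E => a v) h2
  have heXX : ∀ v, eX (e v) = eX v := fun v => Subtype.ext (hee v)
  have hex : ∀ j, ∃ u, ∀ v, b.repr (eX v) j = Φ.B v u := fun j =>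
    Φ.exists_riesz ((b.coord j) ∘ₗ eX)
  choose u hu using hex
  have hu' : ∀ j, Φ.adj e (u j) = u j := by
    intro j
    apply Φ.eq_of_right
    intro v
    rw [← Φ.adj_right, ← hu, ← hu, heXX]
  let x : (Fin (finrank K X) → K) →ₗ[K] E := X.subtype ∘ₗ b.equivFun.symm.toLinearMap
  let y : (Fin (finrank K X) → K) →ₗ[K] E := Fintype.linearCombination K u
  have hx : ∀ a, e (x a) = x a := by
    intro a
    obtain ⟨v, hv⟩ := (b.equivFun.symm a).2
    change e ((b.equivFun.symm a : X) : E) = ((b.equivFun.symm a : X) : E)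
    rw [← hv, hee]
  have hy : ∀ c, Φ.adj e (y c) = y c := by
    intro c
    change Φ.adj e (Fintype.linearCombination K u c) = Fintype.linearCombination K u c
    rw [Fintype.linearCombination_apply, map_sum]
    exact Finset.sum_congr rfl fun j _ => by rw [map_smul, hu']
  have hxu : ∀ a j, Φ.B (x a) (u j) = a j := by
    intro a j
    rw [← hu]
    have g1 : eX (x a) = b.equivFun.symm a := by
      apply Subtype.ext
      exact hx a
    rw [g1, ← Basis.equivFun_apply, LinearEquiv.apply_symm_apply]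
  let P : Hyp Φ (Fin (finrank K X)) :=
    { x := x
      y := y
      xx := fun a c => by
        rw [← hx a, Φ.adj_right, ← hx c, hh1, Φ.zero_right]
      yy := fun a c => by
        rw [← hy a, Φ.adj_left, ← hy c, hh2, Φ.zero_right]
      xy := fun a c => by
        change Φ.B (x a) (Fintype.linearCombination K u c) = _
        rw [Fintype.linearCombination_apply, Hyp.B_sum_right]
        unfold hh
        refine Finset.sum_congr rfl fun j _ => ?_
        rw [Φ.smul_right, hxu, mul_comm] }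
  have hPx : ∀ v, P.x (P.px v) = e v := by
    intro v
    have g1 : P.px v = b.equivFun (eX v) := by
      funext j
      rw [Hyp.px_apply, Basis.equivFun_apply, hu]
      change Φ.B v (Fintype.linearCombination K u (Pi.single j 1)) = _
      rw [Fintype.linearCombination_apply, Hyp.B_sum_right, Finset.sum_eq_single j]
      · rw [Pi.single_eq_same, one_smul]
      · intro i _ hi
        rw [Pi.single_eq_of_ne hi, zero_smul, Φ.zero_right]
      · intro h
        exact absurd (Finset.mem_univ j) h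
    rw [g1]
    change ((b.equivFun.symm (b.equivFun (eX v)) : X) : E) = e v
    rw [LinearEquiv.symm_apply_apply]
    rfl
  refine ⟨P, hPx, fun v => ?_⟩
  apply Φ.eq_of_right
  intro w
  rw [← Φ.adj_right, ← hPx w, P.B_y, P.B_x']

variable {ι : Type} [Fintype ι] [DecidableEq ι] (P : Hyp Φ ι)

/-- **The stabilizer** of a hyperbolic pair. -/
def MM : Subgroup (E ≃ₗ[K] E) where
  carrier := {g | ∃ z : (ι → K) ≃ₗ[K] (ι → K), ∃ h ∈ P.Fx, g = P.gl z * h}
  one_mem' := ⟨1, 1, P.Fx.one_mem, by rw [map_one, one_mul]⟩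
  mul_mem' := by
    rintro _ _ ⟨z, h, hh, rfl⟩ ⟨z', h', hh', rfl⟩
    refine ⟨z * z', h * h', P.Fx.mul_mem hh hh', ?_⟩
    rw [map_mul, mul_assoc, ← mul_assoc h, ← P.gl_comm hh z', mul_assoc, mul_assoc]
  inv_mem' := by
    rintro _ ⟨z, h, hh, rfl⟩
    refine ⟨z⁻¹, h⁻¹, P.Fx.inv_mem hh, ?_⟩
    rw [mul_inv_rev, ← map_inv, P.gl_comm (P.Fx.inv_mem hh)]

theorem mem_MM {g : E ≃ₗ[K] E} :
    g ∈ MM P ↔ ∃ z : (ι → K) ≃ₗ[K] (ι → K), ∃ h ∈ P.Fx, g = P.gl z * h := Iff.rfl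

variable {P}

theorem gl_mem_MM (z : (ι → K) ≃ₗ[K] (ι → K)) : P.gl z ∈ MM P :=
  ⟨z, 1, P.Fx.one_mem, by rw [mul_one]⟩

theorem Fx_le_MM : P.Fx ≤ MM P := fun h hh => ⟨1, h, hh, by rw [map_one, one_mul]⟩

theorem MM_le_IsoG : MM P ≤ IsoG Φ := by
  rintro _ ⟨z, h, hh, rfl⟩
  exact (IsoG Φ).mul_mem (P.gl_mem z) hh.1

theorem x_of_eq {z : (ι → K) ≃ₗ[K] (ι → K)} {g h : E ≃ₗ[K] E} (hh : h ∈ P.Fx)
    (hg : g = P.gl z * h) (a : ι → K) : g (P.x a) = P.x (z a) := by
  rw [hg]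
  change P.gl z (h (P.x a)) = _
  rw [hh.2.1, P.gl_x]

theorem z_unique {z z' : (ι → K) ≃ₗ[K] (ι → K)} {g : E ≃ₗ[K] E}
    (h : ∀ a, g (P.x a) = P.x (z a)) (h' : ∀ a, g (P.x a) = P.x (z' a)) : z = z' := by
  ext1 a
  apply P.x_injective
  rw [← h, ← h']

variable (P) in
/-- **The projection to the general linear group.** -/
noncomputable def prG : MM P →* ((ι → K) ≃ₗ[K] (ι → K)) where
  toFun g := g.2.choose
  map_one' := by
    obtain ⟨h, hh, hg⟩ := (1 : MM P).2.choose_spec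
    exact z_unique (x_of_eq hh hg) (fun a => rfl)
  map_mul' g g' := by
    obtain ⟨h, hh, hg⟩ := g.2.choose_spec
    obtain ⟨h', hh', hg'⟩ := g'.2.choose_spec
    obtain ⟨h'', hh'', hg''⟩ := (g * g').2.choose_spec
    refine z_unique (x_of_eq hh'' hg'') (fun a => ?_)
    change (g : E ≃ₗ[K] E) ((g' : E ≃ₗ[K] E) (P.x a)) = _
    rw [x_of_eq hh' hg', x_of_eq hh hg]
    rfl

theorem prG_x (g : MM P) (a : ι → K) : (g : E ≃ₗ[K] E) (P.x a) = P.x (prG P g a) := by
  obtain ⟨h, hh, hg⟩ := g.2.choose_spec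
  exact x_of_eq hh hg a

theorem prG_eq {g : MM P} {z : (ι → K) ≃ₗ[K] (ι → K)} {h : E ≃ₗ[K] E} (hh : h ∈ P.Fx)
    (hg : (g : E ≃ₗ[K] E) = P.gl z * h) : prG P g = z :=
  z_unique (prG_x g) (x_of_eq hh hg)

theorem prG_spec (g : MM P) : (P.gl (prG P g))⁻¹ * (g : E ≃ₗ[K] E) ∈ P.Fx := by
  obtain ⟨z, h, hh, hg⟩ := g.2
  rw [prG_eq hh hg, hg, inv_mul_cancel_left]
  exact hh

variable (P) in
/-- **The projection to the isometry group of the complement.** -/
noncomputable def prF : MM P →* P.Fx where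
  toFun g := ⟨(P.gl (prG P g))⁻¹ * (g : E ≃ₗ[K] E), prG_spec g⟩
  map_one' := by
    apply Subtype.ext
    change (P.gl (prG P 1))⁻¹ * 1 = 1
    rw [map_one, map_one, inv_one, mul_one]
  map_mul' g g' := by
    apply Subtype.ext
    change (P.gl (prG P (g * g')))⁻¹ * ((g : E ≃ₗ[K] E) * g') =
      ((P.gl (prG P g))⁻¹ * (g : E ≃ₗ[K] E)) * ((P.gl (prG P g'))⁻¹ * (g' : E ≃ₗ[K] E))
    have h1 := P.gl_comm (prG_spec g) (prG P g')⁻¹
    rw [map_inv] at h1
    rw [map_mul, map_mul, mul_inv_rev, ← mul_assoc _ (P.gl (prG P g'))⁻¹, ← h1]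
    simp only [mul_assoc]

theorem prF_coe (g : MM P) :
    (prF P g : E ≃ₗ[K] E) = (P.gl (prG P g))⁻¹ * (g : E ≃ₗ[K] E) := rfl

theorem eq_mul (g : MM P) : (g : E ≃ₗ[K] E) = P.gl (prG P g) * prF P g := by
  rw [prF_coe, mul_inv_cancel_left]

theorem prF_eq {g : MM P} {z : (ι → K) ≃ₗ[K] (ι → K)} {h : E ≃ₗ[K] E} (hh : h ∈ P.Fx)
    (hg : (g : E ≃ₗ[K] E) = P.gl z * h) : (prF P g : E ≃ₗ[K] E) = h := by
  rw [prF_coe, prG_eq hh hg, hg, inv_mul_cancel_left]

variable (P) in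
/-- **The stabilizer is a direct product.** -/
noncomputable def eqv : MM P ≃* ((ι → K) ≃ₗ[K] (ι → K)) × P.Fx where
  toFun g := (prG P g, prF P g)
  invFun x := ⟨P.gl x.1 * (x.2 : E ≃ₗ[K] E), ⟨x.1, x.2, x.2.2, rfl⟩⟩
  left_inv g := Subtype.ext (eq_mul g).symm
  right_inv x := Prod.ext (prG_eq x.2.2 rfl) (Subtype.ext (prF_eq x.2.2 rfl))
  map_mul' g g' := Prod.ext (map_mul _ _ _) (map_mul _ _ _)

theorem eqv_apply (g : MM P) : eqv P g = (prG P g, prF P g) := rfl

theorem eqv_symm_apply (x : ((ι → K) ≃ₗ[K] (ι → K)) × P.Fx) :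
    (((eqv P).symm x : MM P) : E ≃ₗ[K] E) = P.gl x.1 * (x.2 : E ≃ₗ[K] E) := rfl

/-! ### the radical -/

theorem UU_le_IsoG : P.UU ≤ IsoG Φ := fun _ h => h.1

theorem MM_le_normalizer : MM P ≤ Subgroup.normalizer (P.UU : Set (E ≃ₗ[K] E)) := by
  have key : ∀ g ∈ MM P, ∀ u ∈ P.UU, g * u * g⁻¹ ∈ P.UU := by
    rintro _ ⟨z, h, hh, rfl⟩ u hu
    have h1 := P.gl_norm z (P.Fx_norm hh hu)
    have e : P.gl z * h * u * (P.gl z * h)⁻¹ = P.gl z * (h * u * h⁻¹) * (P.gl z)⁻¹ := by group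
    rwa [e]
  intro g hg
  rw [Subgroup.mem_normalizer_iff]
  intro u
  constructor
  · exact key g hg u
  · intro hu
    have := key g⁻¹ ((MM P).inv_mem hg) _ hu
    have e : g⁻¹ * (g * u * g⁻¹) * g⁻¹⁻¹ = u := by group
    rwa [e] at this

theorem UU_inf_MM : P.UU ⊓ MM P = ⊥ := by
  rw [eq_bot_iff]
  rintro _ ⟨hu, z, h, hh, rfl⟩
  have hz : z = 1 := by
    refine z_unique (g := P.gl z * h) (x_of_eq hh rfl) (fun a => ?_)
    rw [hu.2.1]
    rfl
  rw [hz, map_one, one_mul] at hu ⊢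
  rw [← P.inf_Fx_UU]
  exact ⟨hh, hu⟩

theorem sub_one_pow {u : E ≃ₗ[K] E} (hu : u ∈ P.UU) : ((u : End K E) - 1) ^ 3 = 0 := by
  ext v
  have h1 : ∀ v, P.py ((u : End K E) v - v) = 0 := by
    intro v
    have := P.py_of_fix hu.1 hu.2.1 v
    rw [map_sub]
    change P.py (u v) - P.py v = 0
    rw [this, sub_self]
  obtain ⟨a, ha⟩ := hu.2.2 _ (h1 v)
  have h2 : ((u : End K E) - 1) ^ 3 = ((u : End K E) - 1) * ((u : End K E) - 1) *
      ((u : End K E) - 1) := by rw [pow_succ, pow_two]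
  rw [h2]
  change u (u (u v - v) - (u v - v)) - (u (u v - v) - (u v - v)) = 0
  have h3 : u (u v - v) - (u v - v) = P.x a := ha
  rw [h3, hu.2.1, sub_self]

end hyp

end Vale.Agent.P180.H396
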