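import Vale.Agent.P180.H396.GeoA
import Vale.Agent.P180.H396.GeoB

/-!
P180 H396: **the geometry of linear primes**: a nontrivial commutative `p`-group of isometries lies,
with its centralizer, in the stabilizer of a hyperbolic pair, with a homogeneous nontrivial
projection to the general linear group.
-/

set_option linter.all false

namespace Vale.Agent.P180.H396

open Module Vale.Agent.P180.R2.H854 Vale.Agent.P180.H393.Fm Vale.Agent.P180.H951

section card

variable {K E : Type} [Field K] [Finite K] [AddCommGroup E] [Module K E] {Φ : HForm K E}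
  {ι : Type} [Fintype ι] [DecidableEq ι] {P : Hyp Φ ι}

theorem pow_UU {u : E ≃ₗ[K] E} (hu : u ∈ P.UU) : u ^ (ringChar K ^ 2) = 1 := by
  classical
  have hr : (ringChar K).Prime := Vale.Agent.P180.R2.H954.Hc.ringChar_prime
  have : Fact (ringChar K).Prime := ⟨hr⟩
  have hK : CharP K (ringChar K) := ringChar.charP K
  rcases subsingleton_or_nontrivial E with hE | hE
  · ext v
    exact Subsingleton.elim _ _
  have hinj : Function.Injective (algebraMap K (End K E)) := FaithfulSMul.algebraMap_injective _ _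
  have hc : CharP (End K E) (ringChar K) := charP_of_injective_algebraMap hinj _
  have h1 := sub_one_pow hu
  have h2 : ((u : End K E) - 1) ^ (ringChar K ^ 2) = 0 := by
    have h3 : 3 ≤ ringChar K ^ 2 := by
      have := hr.two_le
      nlinarith
    exact pow_eq_zero_of_le h3 h1
  rw [sub_pow_char_pow_of_commute (p := ringChar K) _ (Commute.one_right _), one_pow, sub_eq_zero] at h2
  apply LinearEquiv.toLinearMap_injective
  have h4 : ∀ m : ℕ, ((u ^ m : E ≃ₗ[K] E) : End K E) = (u : End K E) ^ m := by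
    intro m
    induction m with
    | zero => rfl
    | succ m ih => rw [pow_succ, pow_succ, ← ih]; rfl
  rw [h4, h2]
  rfl

theorem isPGroup_UU : IsPGroup (ringChar K) P.UU := fun u =>
  ⟨2, Subtype.ext (pow_UU u.2)⟩

/-- the order of the radical -/
theorem not_dvd_card_UU [Finite E] {p : ℕ} (hp : p.Prime) (hK : ¬ p ∣ Nat.card K) :
    ¬ p ∣ Nat.card P.UU := by
  have hr : (ringChar K).Prime := Vale.Agent.P180.R2.H954.Hc.ringChar_prime
  have : Fact (ringChar K).Prime := ⟨hr⟩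
  have hfin : Finite (E ≃ₗ[K] E) :=
    Finite.of_injective (fun g : E ≃ₗ[K] E => (g : E → E)) DFunLike.coe_injective
  obtain ⟨n, hn⟩ := IsPGroup.iff_card.mp (isPGroup_UU (P := P))
  rw [hn]
  intro h
  have h1 := (Nat.prime_dvd_prime_iff_eq hp hr).mp (hp.dvd_of_dvd_pow h)
  apply hK
  rw [h1]
  exact Vale.Agent.P180.R2.H954.Hc.ringChar_dvd_card

end card

section mem

variable {K E : Type} [Field K] [AddCommGroup E] [Module K E] {Φ : HForm K E}
  {ι : Type} [Fintype ι] [DecidableEq ι] {P : Hyp Φ ι}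

/-- An isometry which stabilizes both subspaces. -/
theorem mem_MM_of {g : E ≃ₗ[K] E} (hg : g ∈ IsoG Φ) (hx : ∀ a, ∃ b, g (P.x a) = P.x b)
    (hx' : ∀ a, ∃ b, g⁻¹ (P.x a) = P.x b) (hy : ∀ a, ∃ b, g (P.y a) = P.y b) : g ∈ MM P := by
  let f : (E ≃ₗ[K] E) → ((ι → K) →ₗ[K] (ι → K)) := fun g => P.px ∘ₗ (g : E →ₗ[K] E) ∘ₗ P.x
  have hf : ∀ a, P.x (f g a) = g (P.x a) := by
    intro a
    obtain ⟨b, hb⟩ := hx a
    change P.x (P.px (g (P.x a))) = g (P.x a)
    rw [hb, P.px_x]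
  have hf' : ∀ a, P.x (f g⁻¹ a) = g⁻¹ (P.x a) := by
    intro a
    obtain ⟨b, hb⟩ := hx' a
    change P.x (P.px (g⁻¹ (P.x a))) = g⁻¹ (P.x a)
    rw [hb, P.px_x]
  let z : (ι → K) ≃ₗ[K] (ι → K) := LinearEquiv.ofLinear (f g) (f g⁻¹)
    (by
      apply LinearMap.ext
      intro a
      apply P.x_injective
      change P.x (f g (f g⁻¹ a)) = P.x a
      rw [hf, hf', app_inv])
    (by
      apply LinearMap.ext
      intro a
      apply P.x_injective
      change P.x (f g⁻¹ (f g a)) = P.x a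
      rw [hf', hf, inv_app])
  have hz : ∀ a, P.x (z a) = g (P.x a) := hf
  refine ⟨z, (P.gl z)⁻¹ * g, ⟨(IsoG Φ).mul_mem ((IsoG Φ).inv_mem (P.gl_mem z)) hg, ?_, ?_⟩, ?_⟩
  · intro a
    change (P.gl z)⁻¹ (g (P.x a)) = P.x a
    rw [← hz, ← P.gl_x, inv_app]
  · have hI := (IsoG Φ).mul_mem ((IsoG Φ).inv_mem (P.gl_mem z)) hg
    have hfx : ∀ a, ((P.gl z)⁻¹ * g) (P.x a) = P.x a := by
      intro a
      change (P.gl z)⁻¹ (g (P.x a)) = P.x a
      rw [← hz, ← P.gl_x, inv_app]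
    intro c
    obtain ⟨b, hb⟩ := hy c
    have h1 : ((P.gl z)⁻¹ * g) (P.y c) = P.y (adjL Φ.θ z⁻¹ b) := by
      change (P.gl z)⁻¹ (g (P.y c)) = _
      rw [hb, ← map_inv, P.gl_y]
    rw [h1]
    congr 1
    apply hh_ext_right Φ.θθ
    intro a
    rw [← P.xy, ← h1, ← hfx a, hI, P.xy]
  · rw [mul_inv_cancel_left]

theorem mem_MM_of_comm [FiniteDimensional K E] [Finite K] {e : End K E}
    (hex : ∀ v, P.x (P.px v) = e v) (hey : ∀ v, P.y (P.py v) = Φ.adj e v) {g : E ≃ₗ[K] E}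
    (hg : g ∈ IsoG Φ) (hge : ∀ v, g (e v) = e (g v)) : g ∈ MM P := by
  have hge' : ∀ v, g⁻¹ (e v) = e (g⁻¹ v) := by
    intro v
    apply g.injective
    rw [hge, app_inv, app_inv]
  have hg' := (IsoG Φ).inv_mem hg
  refine mem_MM_of hg (fun a => ⟨P.px (g (P.x a)), ?_⟩) (fun a => ⟨P.px (g⁻¹ (P.x a)), ?_⟩)
    (fun a => ⟨P.py (g (P.y a)), ?_⟩)
  · rw [hex, ← hge, ← hex, P.px_x]
  · rw [hex, ← hge', ← hex, P.px_x]
  · rw [hey]
    apply Φ.eq_of_right
    intro w
    rw [← Φ.adj_right]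
    have h1 : Φ.B w (g (P.y a)) = Φ.B (g⁻¹ w) (P.y a) := by
      have := hg' w (g (P.y a))
      rw [inv_app] at this
      exact this.symm
    have h2 : Φ.B (e w) (g (P.y a)) = Φ.B (g⁻¹ (e w)) (P.y a) := by
      have := hg' (e w) (g (P.y a))
      rw [inv_app] at this
      exact this.symm
    rw [h1, h2, hge', Φ.adj_right, ← hey, P.py_y]

end mem

section main

variable {K E : Type} [Field K] [AddCommGroup E] [Module K E] {Φ : HForm K E}
  {ι : Type} [Fintype ι] [DecidableEq ι]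

/-- The projection of a subgroup to the general linear group. -/
noncomputable def prQ (P : Hyp Φ ι) (Q : Subgroup (E ≃ₗ[K] E)) :
    Subgroup ((ι → K) ≃ₗ[K] (ι → K)) :=
  (Q.subgroupOf (MM P)).map (prG P)

theorem mem_prQ {P : Hyp Φ ι} {Q : Subgroup (E ≃ₗ[K] E)} {z : (ι → K) ≃ₗ[K] (ι → K)} :
    z ∈ prQ P Q ↔ ∃ h ∈ P.Fx, P.gl z * h ∈ Q := by
  constructor
  · rintro ⟨g, hg, rfl⟩
    refine ⟨prF P g, (prF P g).2, ?_⟩
    rw [← eq_mul]
    exact hg
  · rintro ⟨h, hh, hQ⟩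
    exact ⟨⟨P.gl z * h, z, h, hh, rfl⟩, hQ, prG_eq hh rfl⟩

variable [FiniteDimensional K E] [Finite K]

/-- An isometry of order a power of a linear prime has determinant one. -/
theorem det_eq_one {p : ℕ} (hp : p.Prime) (hK : ¬ p ∣ Nat.card K)
    (hlin : ∀ j : ℕ, (∀ c : K, Φ.θ c = c ^ (ringChar K ^ j)) → ¬ p ∣ ringChar K ^ j + 1)
    {g : E ≃ₗ[K] E} (hg : g ∈ IsoG Φ) {m : ℕ} (hm : g ^ p ^ m = 1) :
    LinearMap.det (g : End K E) = 1 := by
  refine Vale.Agent.P180.R2.H954.Hc.eq_one_of_norm hp hK Φ.θ Φ.θθ hlin (m := m) ?_ ?_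
  · have h4 : ∀ m : ℕ, ((g ^ m : E ≃ₗ[K] E) : End K E) = (g : End K E) ^ m := by
      intro m
      induction m with
      | zero => rfl
      | succ m ih => rw [pow_succ, pow_succ, ← ih]; rfl
    rw [← map_pow, ← h4, hm]
    exact map_one _
  · have h1 : Φ.adj (g : E →ₗ[K] E) * (g : E →ₗ[K] E) = 1 := by
      ext y
      apply Φ.eq_of_right
      intro x
      change Φ.B x (Φ.adj (g : E →ₗ[K] E) (g y)) = Φ.B x y
      rw [← Φ.adj_right]
      exact hg x y
    have h2 := congrArg LinearMap.det h1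
    rw [map_mul, map_one, Vale.Agent.P180.R2.H954.Hc.det_adj] at h2
    rw [mul_comm]
    exact h2

/-- **The geometry of linear primes.** -/
theorem exists_geo {p : ℕ} (hp : p.Prime) (hK : ¬ p ∣ Nat.card K)
    (hlin : ∀ j : ℕ, (∀ c : K, Φ.θ c = c ^ (ringChar K ^ j)) → ¬ p ∣ ringChar K ^ j + 1)
    {Q : Subgroup (E ≃ₗ[K] E)} (hQG : Q ≤ IsoG Φ) (hQp : IsPGroup p Q)
    (hab : ∀ x ∈ Q, ∀ y ∈ Q, x * y = y * x) (hne : Q ≠ ⊥) :
    ∃ (a : ℕ) (P : Hyp Φ (Fin a)), 0 < a ∧ Q ≤ MM P ∧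
      IsoG Φ ⊓ Subgroup.centralizer (Q : Set (E ≃ₗ[K] E)) ≤ MM P ∧
      P.UU ⊓ Subgroup.centralizer (Q : Set (E ≃ₗ[K] E)) = ⊥ ∧
      HomOn (prQ P Q) ⊤ ∧ prQ P Q ≠ ⊥ := by
  classical
  have hfE : Finite E := Module.finite_of_finite K
  have hfin : Finite (E ≃ₗ[K] E) :=
    Finite.of_injective (fun g : E ≃ₗ[K] E => (g : E → E)) DFunLike.coe_injective
  let τ : SpecialLinearGroup K E →* (E ≃ₗ[K] E) :=
    SpecialLinearGroup.toLinearEquiv (R := K) (V := E)
  have hτi : Function.Injective τ := SpecialLinearGroup.toLinearEquiv_injective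
  have hfSL : Finite (SpecialLinearGroup K E) := Finite.of_injective τ hτi
  set Q' : Subgroup (SpecialLinearGroup K E) := Q.comap τ with hQ'
  have hQQ : ∀ q ∈ Q, ∃ q' ∈ Q', τ q' = q := by
    intro q hq
    obtain ⟨m, hm⟩ := hQp ⟨q, hq⟩
    have hm' : q ^ p ^ m = 1 := congrArg Subtype.val hm
    have h1 : LinearEquiv.det q = 1 := by
      apply Units.ext
      rw [LinearEquiv.coe_det]
      exact det_eq_one hp hK hlin (hQG hq) hm'
    exact ⟨⟨q, h1⟩, hq, rfl⟩
  have hQ'I : Q' ≤ Φ.Iso := fun q hq => hQG hq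
  have hQ'p : IsPGroup p Q' := hQp.comap_of_injective τ hτi
  have hab' : ∀ x ∈ Q', ∀ y ∈ Q', x * y = y * x := fun x hx y hy => hτi (by
    rw [map_mul, map_mul]
    exact hab _ hx _ hy)
  have hpF : Fact p.Prime := ⟨hp⟩
  obtain ⟨l, hl⟩ := IsPGroup.iff_card.mp hQ'p
  have hcop : (Nat.card K).Coprime (Nat.card Q') := by
    rw [hl]
    exact (Nat.Coprime.pow_left l ((Nat.Prime.coprime_iff_not_dvd hp).mpr hK)).symm
  obtain ⟨q₀, hq₀, hq₀1⟩ : ∃ q₀ ∈ Q, q₀ ≠ 1 := by
    by_contra hcon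
    push Not at hcon
    exact hne ((Subgroup.eq_bot_iff_forall Q).mpr hcon)
  obtain ⟨q₁, hq₁, rfl⟩ : ∃ q₁ ∈ Q', τ q₁ = q₀ := hQQ _ hq₀
  have hq₁1 : q₁ ≠ 1 := by
    rintro rfl
    exact hq₀1 (map_one τ)
  obtain ⟨e, he, h1, h2, h3, h4, h5⟩ := exists_idem Φ hp hQ'p hcop hQ'I hab' hlin hq₁ hq₁1
  obtain ⟨P, hPx, hPy⟩ := exists_hyp he h1 h2
  have hee : ∀ v, e (e v) = e v := fun v => congrArg (fun a : End K E => a v) he
  -- elements which commute with `Q`
  have hcent : ∀ g : E ≃ₗ[K] E, (∀ q ∈ Q, q * g = g * q) → ∀ v, g (e v) = e (g v) := by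
    intro g hg v
    have g1 := h4 (g : End K E) (fun q hq => by
      apply LinearMap.ext
      intro w
      exact (congrArg (fun a : E ≃ₗ[K] E => a w) (hg (τ q) hq)).symm)
    exact congrArg (fun a : End K E => a v) g1
  have hQM : Q ≤ MM P := fun q hq => mem_MM_of_comm hPx hPy (hQG hq)
    (hcent q fun q' hq' => hab q' hq' q hq)
  have hCM : IsoG Φ ⊓ Subgroup.centralizer (Q : Set (E ≃ₗ[K] E)) ≤ MM P := by
    rintro g ⟨hg, hgc⟩
    exact mem_MM_of_comm hPx hPy hg (hcent g fun q hq => Subgroup.mem_centralizer_iff.mp hgc q hq)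
  refine ⟨_, P, ?_, hQM, hCM, ?_, ⟨fun _ _ _ _ => trivial, ?_⟩, ?_⟩
  · rw [Nat.pos_iff_ne_zero]
    intro h0
    have g1 : LinearMap.range e = ⊥ := Submodule.finrank_eq_zero.mp h0
    have g2 : e = 0 := LinearMap.range_eq_bot.mp g1
    apply h3
    rw [g2, mul_zero]
  · rw [eq_bot_iff, ← UU_inf_MM (P := P)]
    rintro u ⟨hu, huc⟩
    exact ⟨hu, hCM ⟨hu.1, huc⟩⟩
  · -- homogeneity
    intro X hX
    -- lift to the group algebra
    obtain ⟨x, hx⟩ : ∃ x : MonoidAlgebra K Q', ∀ a, P.x (X a) =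
        Vale.Agent.P180.R2.H954.Hc.act Q' x (P.x a) := by
      induction hX using Submodule.span_induction with
      | mem X hX =>
        obtain ⟨⟨z, hz⟩, rfl⟩ := hX
        obtain ⟨h, hh, hzQ⟩ := mem_prQ.mp hz
        obtain ⟨q, hq, hqz⟩ := hQQ _ hzQ
        refine ⟨MonoidAlgebra.single ⟨q, hq⟩ 1, fun a => ?_⟩
        rw [Vale.Agent.P180.R2.H954.Hc.act_single, one_smul]
        change P.x (z a) = (τ q) (P.x a)
        rw [hqz]
        exact (x_of_eq hh rfl a).symm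
      | zero => exact ⟨0, fun a => by rw [map_zero, LinearMap.zero_apply, LinearMap.zero_apply, map_zero]⟩
      | add X Y _ _ hX hY =>
        obtain ⟨x, hx⟩ := hX
        obtain ⟨y, hy⟩ := hY
        refine ⟨x + y, fun a => ?_⟩
        rw [LinearMap.add_apply, map_add, hx, hy, map_add, LinearMap.add_apply]
      | smul c X _ hX =>
        obtain ⟨x, hx⟩ := hX
        refine ⟨c • x, fun a => ?_⟩
        rw [LinearMap.smul_apply, map_smul, hx, map_smul, LinearMap.smul_apply]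
    have hxe : ∀ a, e (P.x a) = P.x a := fun a => by rw [← hPx, P.px_x]
    rcases h5 x with h | ⟨y, hy⟩
    · left
      intro w _
      apply P.x_injective
      rw [hx, ← hxe, map_zero]
      exact congrArg (fun a : End K E => a (P.x w)) h
    · right
      intro w _ hw
      apply P.x_injective
      have g1 := congrArg (fun a : End K E => a (P.x w)) hy
      change Vale.Agent.P180.R2.H954.Hc.act Q' y (Vale.Agent.P180.R2.H954.Hc.act Q' x
        (e (P.x w))) = e (P.x w) at g1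
      rw [hxe, ← hx, hw, map_zero, map_zero] at g1
      rw [← g1, map_zero]
  · -- nontriviality
    intro hbot
    apply h3
    have hq₁Q : τ q₁ ∈ Q := hq₀
    set g : MM P := ⟨τ q₁, hQM hq₁Q⟩ with hg
    have g1 : prG P g ∈ prQ P Q := ⟨g, hq₁Q, rfl⟩
    rw [hbot, Subgroup.mem_bot] at g1
    apply LinearMap.ext
    intro v
    change (τ q₁) (e v) = e v
    rw [← hPx]
    have g2 := prG_x g (P.px v)
    rw [g1] at g2
    exact g2

end main

end Vale.Agent.P180.H396
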