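import Vale.Agent.P180.H396.CritDef

/-!
P180: exceptional components, with special linear groups and isometry groups of arbitrary dimension.
-/

namespace Vale.Agent.P180

open Vale.Agent.P180.R2.H365

universe u

/-- `L / Z(L)` is isomorphic to `PSp_d(K)`, `|K| > 9`, or `PSU_d(K)`, `|K| > 324`, `K` a finite
field, as in `IsFormGrp`; `p` is a linear prime and does not divide `|K|`, and `ExtA` holds. -/
def FormTop (p : ℕ) (L : Type) [Group L] (Γ : Subgroup (MulAut L)) (A : Subgroup L) : Prop :=
  ∃ (K : Type) (_ : Field K) (_ : Finite K) (d : ℕ) (θ : K →+* K), ¬ p ∣ Nat.card K ∧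
    IsFormGrp d θ (L ⧸ Subgroup.center L) ∧ LinPr p θ ∧ 9 < Nat.card K ∧
    (324 < Nat.card K ∨ ∀ a, θ a = a) ∧ ExtA p K L Γ A

/-- `L` is a symplectic, unitary or orthogonal group of dimension `d ≥ 3` over a finite field `K`, on
which `Γ` acts by semilinear similitudes, as in `SimData`, where `c` says that `ExtA` holds. -/
def IsoTop (p : ℕ) (L : Type) [Group L] (Γ : Subgroup (MulAut L)) (A : Subgroup L) : Prop :=
  ∃ (K : Type) (_ : Field K) (_ : Finite K) (d : ℕ), 3 ≤ d ∧
    SimData (ExtA p K L Γ A) p d K (Fin d → K) L Γ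

open Subgroup in
/-- The component `L` of `G` is exceptional as in `ExcX`, `L / Z(L)` has order greater than
`9 ^ 16`, `L` is not as in `LinTop` or `FormTop` for the group of the automorphisms of `L` induced by
`N_D(L)` and for `D ∩ L`, and if it is as in `IsoTop`, then `N_G(L) / L C_G(L)` is of order greater
than `m` and not solvable. -/
def ExcM (p n m : ℕ) (k : Type u) [Field k] (G : Type) [Group G] [Finite G]
    (b : MonoidAlgebra k G) (D L : Subgroup G) : Prop :=
  ExcX p n m k G b D L ∧ 9 ^ 16 < Nat.card (L ⧸ Subgroup.center L) ∧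
    ¬ LinTop p L (Gam D L) (D.subgroupOf L) ∧ ¬ FormTop p L (Gam D L) (D.subgroupOf L) ∧
    ¬ (IsoTop p L (Gam D L) (D.subgroupOf L) ∧
      ((L ⊔ centralizer (L : Set G)).relIndex (normalizer (L : Set G)) ≤ m ∨ SolvOut L))

end Vale.Agent.P180
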