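import Vale.Agent.P180.H396.CritDef1
import Vale.Agent.P180.H396.CritDef2
import Vale.Agent.P180.H392.LocC
import Vale.Agent.P180.H392.SecC
import Vale.Agent.P180.R2.H365.FinJ
import Vale.Agent.P180.R2.H365.Fin7

/-!
P180: the local theorems for the reduction of arbitrary finite groups to exceptional components.
-/

set_option linter.all false

namespace Vale.Agent.P180.H396

open Vale.Agent.P180 Vale.Agent.P180.R2 Vale.Agent.P180.R2.H365 Vale.Agent.P180.H768.Gd
  Vale.Agent.P180.R2.H47 Vale.Agent.P180.R2.H954 Vale.Agent.P180.H392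

universe u

theorem linAb_of_top {p : ℕ} {L : Type} [Group L] [Finite L] (hL : commutator L = ⊤)
    {Γ : Subgroup (MulAut L)} {A : Subgroup L} (h : LinTop p L Γ A) :
    Nat.card (L ⧸ Subgroup.center L) ≤ 9 ^ 16 ∨ LinCls p L Γ A := by
  obtain ⟨K, _, _, d, hd, hpK, hld, hT, h⟩ := h
  rcases exists_surj hd hL hT with h0 | hπ
  · exact Or.inl h0
  · exact Or.inr ⟨K, inferInstance, inferInstance, d, hd, hpK, hld, hπ, h⟩

theorem isoCls_of_top {p : ℕ} [Fact p.Prime] {G : Type} [Group G] [Finite G]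
    {D L : Subgroup G} (hD : IsPGroup p D) (hL : commutator L = ⊤)
    (h : FormTop p L (Gam D L) (D.subgroupOf L)) :
    IsoCls p L (Gam D L) (D.subgroupOf L) ∧ SolvOut L := by
  obtain ⟨K, _, _, d, θ, hpK, hT, hlin, hK9, hK, h⟩ := h
  have hfin : Finite (SpecialLinearGroup K (Fin d → K)) := H799.BN.finite_sl
  obtain ⟨hd3, ε, B, X, π, hcase, hB, hX, hπ, hker⟩ := hT
  have hd4 : 4 ≤ d ∨ ∃ a, θ a ≠ a := hcase.imp (fun h => h.2.2.1) fun h => h.1
  have hpack : derivedSeries (MulAut (L ⧸ Subgroup.center L)) 2 ≤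
      (MulAut.conj : L ⧸ Subgroup.center L →* MulAut (L ⧸ Subgroup.center L)).range ∧
      S.FPack d θ L := by
    rcases hcase with ⟨hθ, rfl, -, halt⟩ | ⟨⟨a, ha⟩, rfl⟩
    · obtain rfl : θ = RingHom.id K := RingHom.ext hθ
      exact S.sp_pack hK9 hd3 hL hB halt hX hπ hker
    · have hK2 : 324 < Nat.card K := by
        rcases hK with h | h
        · exact h
        · exact absurd (h a) ha
      exact S.un_pack hK2 hd3 hL ⟨a, ha⟩ hB hX hπ hker
  obtain ⟨hout, ε, B, X, π, hB, hgood, hX, hπ, hcen, hinn, hsim⟩ := hpack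
  have hp2 : Odd p := H954.Hc.odd_of_lin (Fact.out : p.Prime) hpK θ hlin
  have hsim' := fun α (hα : α ∈ Gam D L) => (Y.exists_pow_of_Gam hD hα).elim fun i hi =>
    hsim α (p ^ i) hp2.pow hi
  exact ⟨⟨K, inferInstance, inferInstance, d, hd3, B, θ, X, π,
    ⟨⟨ε, hB⟩, ⟨fun g hg => (hX g).mp hg, fun g h hg _ hg' _ => absurd ((hX g).mpr hg') hg,
      Or.inr fun g hg => (hX g).mpr hg⟩, hgood⟩,
    ⟨hπ, fun x hx => (hcen x).mp hx, hsim'⟩, hd4, Or.inr ⟨h, hpK, hlin⟩⟩,
    ⟨2, H589.solvOut_of_quot hL hout⟩⟩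

section

variable {Exc Exc' : ∀ (k : Type u) [Field k] (G : Type) [Group G] [Finite G],
    MonoidAlgebra k G → Subgroup G → Subgroup G → Prop}
  {Λ : ∀ (k : Type u) [Field k] (G : Type) [Group G] [Finite G], MonoidAlgebra k G → Prop}

theorem locL_mono {k : Type u} [Field k] {p n : ℕ} (h : LocL Exc Λ k p n)
    (hE : ∀ (G : Type) [Group G] [Finite G] (b : MonoidAlgebra k G) (D L : Subgroup G),
      IsPGroup p D → IsComponent L → Exc k G b D L → Exc' k G b D L) : LocL Exc' Λ k p n := by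
  intro G _ _ Z D a b hs hST hNR hD
  rcases h G Z D a b hs hST hNR hD with ⟨L, hL, hp, hr, h1⟩ | h1
  · exact Or.inl ⟨L, hL, hp, hr, hE G b D L hs.Dp hL h1⟩
  · exact Or.inr h1

end

/-- The local theorem, special linear groups. -/
theorem locCritB {B : ℕ → ℕ → ℕ} (hGL : GLStmtB.{u} B) (p n m : ℕ) [Fact p.Prime] (k : Type u)
    [Field k] [IsAlgClosed k] [CharP k p] :
    LocL (ExcL p n m) (SmallT p n ((max 1 (cB B p n m)) ^ n) (b7 n (mB p n m) (max m 2))) k p n := by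
  refine locL_mono (locB hGL p n m k) ?_
  rintro G _ _ b D L hD hL ⟨hX, h9, hLA⟩
  refine ⟨hX, h9, fun h => ?_⟩
  rcases linAb_of_top hL.1.1 h with h0 | h0
  · exact absurd h0 (not_le.mpr h9)
  · exact hLA (linAb_of_cls h0)

/-- The local theorem, special linear groups and isometry groups. -/
theorem locCritC {B B' : ℕ → ℕ → ℕ} (hGL : GLStmtB.{u} B) (hI : IsoStmt.{u} B') (p n m : ℕ)
    [Fact p.Prime] (k : Type u) [Field k] [IsAlgClosed k] [CharP k p] :
    LocL (ExcM p n m) (SmallT p n ((max 1 (cC B B' p n m)) ^ n) (b7 n (mB p n m) (max m 2))) k p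
      n := by
  refine locL_mono (locC hGL hI p n m k) ?_
  rintro G _ _ b D L hD hL ⟨hX, h9, hLA, hIC⟩
  refine ⟨hX, h9, fun h => ?_, fun h => ?_, hIC⟩
  · rcases linAb_of_top hL.1.1 h with h0 | h0
    · exact absurd h0 (not_le.mpr h9)
    · exact hLA h0
  · obtain ⟨h1, h2⟩ := isoCls_of_top hD hL.1.1 h
    exact hIC ⟨h1, Or.inr h2⟩

end Vale.Agent.P180.H396
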