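import Vale.Agent.P180.R2.H365.Def10

/-!
P180: components whose simple quotient is a special linear group of arbitrary dimension.
-/

namespace Vale.Agent.P180

open Vale.Agent.P180.R2.H365

universe u

/-- `(L, Γ, A)` is as in `CenOn`, or both (1) `Γ` consists of inner automorphisms of `L`, or `p` does
not divide twice the order of the group of automorphisms of `K`, or `A` has exponent `1` or `p`
modulo the centre of `L`, and (2) `A` is commutative, or the image of `A` in `L / Z(L)` has order
less than `p ^ p`. -/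
def ExtA (p : ℕ) (K : Type) [Field K] (L : Type) [Group L] (Γ : Subgroup (MulAut L))
    (A : Subgroup L) : Prop :=
  CenOn p L Γ A ∨
    ((Γ ≤ (MulAut.conj : L →* MulAut L).range ∨ ¬ p ∣ 2 * Nat.card (K ≃+* K) ∨ ExpOn p L A) ∧
      ((∀ x ∈ A, ∀ y ∈ A, x * y = y * x) ∨ SmallOn p L A))

/-- `L / Z(L)` is isomorphic to `PSL_d(K)`, `K` a finite field and `3 ≤ d`; `p` does not divide
`|K|`, `d` is as in `LinDeg`, and `ExtA` holds. -/
def LinTop (p : ℕ) (L : Type) [Group L] (Γ : Subgroup (MulAut L)) (A : Subgroup L) : Prop :=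
  ∃ (K : Type) (_ : Field K) (_ : Finite K) (d : ℕ), 3 ≤ d ∧ ¬ p ∣ Nat.card K ∧
    LinDeg p d (Nat.card K) ∧ IsLin d K (L ⧸ Subgroup.center L) ∧ ExtA p K L Γ A

/-- The block `b` of `RG` is Morita equivalent over `R` to one of the blocks `c i`, or to a block
`b'` of a finite group with the property `P`. -/
def MorOr (R : Type u) [CommRing R] {r : ℕ} {H : Fin r → Type} [∀ i, Group (H i)]
    {c : ∀ i, MonoidAlgebra R (H i)} (hc : ∀ i, IsBlockR (c i)) {G : Type} [Group G]
    {b : MonoidAlgebra R G} (hb : IsBlockR b)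
    (P : ∀ (G' : Type) [Group G'] [Finite G'], MonoidAlgebra R G' → Prop) : Prop :=
  (∃ i, MorB R hb (hc i)) ∨
    ∃ (G' : Type) (_ : Group G') (_ : Finite G') (b' : MonoidAlgebra R G') (hb' : IsBlockR b'),
      MorB R hb hb' ∧ P G' b'

end Vale.Agent.P180
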