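import Vale.Agent.P180.H396.CritDef

/-!
P180: exceptional components, with special linear groups of arbitrary dimension.
-/

namespace Vale.Agent.P180

open Vale.Agent.P180.R2.H365

universe u

/-- The component `L` of `G` is exceptional as in `ExcX`, `L / Z(L)` has order greater than
`9 ^ 16`, and `L` is not as in `LinTop` for the group of the automorphisms of `L` induced by
`N_D(L)` and for `D ∩ L`. -/
def ExcL (p n m : ℕ) (k : Type u) [Field k] (G : Type) [Group G] [Finite G]
    (b : MonoidAlgebra k G) (D L : Subgroup G) : Prop :=
  ExcX p n m k G b D L ∧ 9 ^ 16 < Nat.card (L ⧸ Subgroup.center L) ∧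
    ¬ LinTop p L (Gam D L) (D.subgroupOf L)

end Vale.Agent.P180
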