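import Vale.Agent.P180.R2.H365.Def10
import Vale.Agent.P180.R2.H365.SecDef

/-!
P180: exceptional components, with special linear groups and isometry groups of arbitrary dimension,
and the reduction to them.
-/

namespace Vale.Agent.P180.CritF

open Vale.Agent.P180.R2.H365

universe u

/-- `(L, Γ, A)` is as in `CenOn`, or both (1) `Γ` consists of inner automorphisms of `L`, or `p` does
not divide twice the order of the group of automorphisms of `K`, or `A` has exponent `1` or `p`
modulo the centre of `L`, and (2) `A` is commutative, or the image of `A` in `L / Z(L)` has order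
less than `p ^ p`. -/
def Ext (p : ℕ) (K : Type) [Field K] (L : Type) [Group L] (Γ : Subgroup (MulAut L))
    (A : Subgroup L) : Prop :=
  CenOn p L Γ A ∨
    ((Γ ≤ (MulAut.conj : L →* MulAut L).range ∨ ¬ p ∣ 2 * Nat.card (K ≃+* K) ∨ ExpOn p L A) ∧
      ((∀ x ∈ A, ∀ y ∈ A, x * y = y * x) ∨ SmallOn p L A))

/-- `[x, [x, …, [x, y]]] = 1`, with `r` brackets, for all `x` and `y` in `A`. This holds if the
nilpotency class of `A` is at most `r`. -/
def Eng (r : ℕ) {L : Type} [Group L] (A : Subgroup L) : Prop :=
  ∀ x ∈ A, ∀ y ∈ A, (fun t => x * t * x⁻¹ * t⁻¹)^[r] y = 1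

/-- `L` is a quotient of `SL(E)` by a central subgroup, `d` the dimension of `E`; the preimage of `A`
in `SL(E)` satisfies `Eng`, `r` the maximum of `1` and `p - 2`; `p` does not divide twice the order of
the group of automorphisms of `K`, or the elements of `Γ` are induced by elements `g` of `GL(E)`, or
`p ≠ 2` and they lift to automorphisms `β` of `SL(E)` which fix the elements of `p`-power order in the
preimage of `A Z(L)`; and the `p`-part of the greatest common divisor of `d` and `|K| - 1` is at most
`m`. -/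
def Out (p m d : ℕ) (K E : Type) [Field K] [AddCommGroup E] [Module K E] (L : Type) [Group L]
    (Γ : Subgroup (MulAut L)) (A : Subgroup L) : Prop :=
  ∃ π : SpecialLinearGroup K E →* L, Function.Surjective π ∧ π.ker ≤ Subgroup.center _ ∧
    Eng (max 1 (p - 2)) (A.comap π) ∧
    (¬ p ∣ 2 * Nat.card (K ≃+* K) ∨
      (∀ α ∈ Γ, ∃ g : E → E, Function.Bijective g ∧ (∀ x y, g (x + y) = g x + g y) ∧
        (∀ (c : K) x, g (c • x) = c • g x) ∧
        ∀ s t : SpecialLinearGroup K E, (∀ x, ap t (g x) = g (ap s x)) → α (π s) = π t) ∨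
      (p ≠ 2 ∧ ∀ α ∈ Γ, ∃ β : MulAut (SpecialLinearGroup K E), (∀ s, π (β s) = α (π s)) ∧
        ∀ s, (∃ j : ℕ, s ^ p ^ j = 1) → π s ∈ A ⊔ Subgroup.center L → β s = s)) ∧
    ∀ j, p ^ j ∣ d → p ^ j ∣ Nat.card K - 1 → p ^ j ≤ m

/-- `K` is a finite field of order prime to `p`, and with `T = L / Z(L)`, one of the following holds.

(1) `T` is isomorphic to `PSL_d(K)`, `3 ≤ d`, `d` is as in `LinDeg`, and `Ext` holds.

(2) `T` is isomorphic to `PSp_d(K)`, `|K| > 9`, or `PSU_d(K)`, `|K| > 324`, as in `IsFormGrp`, `p` is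
a linear prime, and `Ext` holds.

(3) `3 ≤ d`, and `Out` holds for the space of the vectors with `d` entries.

(4) `L` is a symplectic, unitary or orthogonal group of dimension `d ≥ 3` over `K`, on which `Γ` acts
by semilinear similitudes, as in `SimData`, where `c` says that `Ext` holds; and `o` holds. -/
def Cls (o : Prop) (p m : ℕ) (L : Type) [Group L] (Γ : Subgroup (MulAut L)) (A : Subgroup L) :
    Prop :=
  ∃ (K : Type) (_ : Field K) (_ : Finite K) (d : ℕ), ¬ p ∣ Nat.card K ∧
    ((3 ≤ d ∧ LinDeg p d (Nat.card K) ∧ IsLin d K (L ⧸ Subgroup.center L) ∧ Ext p K L Γ A) ∨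
      (∃ θ : K →+* K, IsFormGrp d θ (L ⧸ Subgroup.center L) ∧ LinPr p θ ∧ 9 < Nat.card K ∧
        (324 < Nat.card K ∨ ∀ a, θ a = a) ∧ Ext p K L Γ A) ∨
      (3 ≤ d ∧ (Out p m d K (Fin d → K) L Γ A ∨
        (SimData (Ext p K L Γ A) p d K (Fin d → K) L Γ ∧ o))))

open Subgroup in
/-- The component `L` of `G` is exceptional as in `ExcX`, `L / Z(L)` has order greater than
`9 ^ 16`, and `L` is not as in `Cls` for the group of the automorphisms of `L` induced by `N_D(L)`
and for `D ∩ L`, where `o` says that `N_G(L) / L C_G(L)` is of order at most `m` or solvable. -/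
def Exc (p n m : ℕ) (k : Type u) [Field k] (G : Type) [Group G] [Finite G]
    (b : MonoidAlgebra k G) (D L : Subgroup G) : Prop :=
  ExcX p n m k G b D L ∧ 9 ^ 16 < Nat.card (L ⧸ Subgroup.center L) ∧
    ¬ Cls ((L ⊔ centralizer (L : Set G)).relIndex (normalizer (L : Set G)) ≤ m ∨ SolvOut L) p m L
      (Gam D L) (D.subgroupOf L)

/-- There are blocks `c i` of `R[H i]` such that, for each finite group `G`, each block `b` of `RG`
with a defect group `D` (for `b` or for the image `f b`) of order at most `n` is Morita equivalent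
over `R` to one of the `c i` or to a block `b'` of `RG'`, `G'` a finite group, such that `f b'` is
critical as in `IsCriticalR` with the exceptional components `Exc`, relative to `D`. -/
def Red (p n m : ℕ) {r : ℕ} (H : Fin r → Type) [∀ i, Group (H i)] (R : Type u) [CommRing R]
    {k : Type u} [Field k] (f : R →+* k) : Prop :=
  ∃ (c : ∀ i, MonoidAlgebra R (H i)) (hc : ∀ i, IsBlockR (c i)),
    ∀ (G : Type) [Group G] [Finite G] (b : MonoidAlgebra R G) (hb : IsBlockR b) (D : Subgroup G),
      (IsDefectGroupR b D ∨ IsDefectGroupR (MonoidAlgebra.mapRingHom G f b) D) →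
      Nat.card D ≤ n → (∃ i, MorB R hb (hc i)) ∨
        ∃ (G' : Type) (_ : Group G') (_ : Finite G') (b' : MonoidAlgebra R G')
          (hb' : IsBlockR b'), MorB R hb hb' ∧
          IsCriticalR (ExcJ (Exc p n m) D) p (Nat.card D) (MonoidAlgebra.mapRingHom G' f b')

end Vale.Agent.P180.CritF
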