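import Vale.Agent.P180.H396.CritD
import Vale.Agent.P180.H392.GlE
import Vale.Agent.P180.H951.SlAllG

/-!
P180: the reduction of arbitrary finite groups to exceptional components, unconditional form.
-/

set_option linter.all false

namespace Vale.Agent.P180.H396

open Vale.Agent.P180 Vale.Agent.P180.H392 Vale.Agent.P180.H951 IsLocalRing

universe u

theorem innStmt : InnStmt.{u} slC := by
  intro p n _ k _ _ _ K _ _ d _ hp2 hd hpK Q hQ hQn hab
  have hfin : Finite ((Fin d → K) ≃ₗ[K] (Fin d → K)) :=
    Finite.of_injective (fun g : (Fin d → K) ≃ₗ[K] (Fin d → K) => (g : (Fin d → K) → (Fin d → K)))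
      DFunLike.coe_injective
  exact oneBd_slAll hp2 hpK hQ hQn hab

end Vale.Agent.P180.H396
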