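import Vale.Agent.P180.H396.CritF
import Vale.Agent.P180.H392.GlG

/-!
P180: the reduction of arbitrary finite groups to exceptional components, unconditional form.
-/

set_option linter.all false

namespace Vale.Agent.P180.H396

open Vale.Agent.P180 Vale.Agent.P180.H392 IsLocalRing

universe u

/-- **The reduction.** -/
theorem critE2 (p : ℕ) [Fact p.Prime] (n m : ℕ) :
    ∃ (r : ℕ) (H : Fin r → Type) (_ : ∀ i, Group (H i)) (_ : ∀ i, Finite (H i)),
      (∀ (k : Type u) [Field k] [IsAlgClosed k] [CharP k p],
        Crit.Red p n m H k (RingHom.id k)) ∧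
      (∀ (O : Type u) [CommRing O] [IsDomain O] [IsDiscreteValuationRing O]
        [IsAdicComplete (maximalIdeal O) O] [IsAlgClosed (ResidueField O)]
        [CharP (ResidueField O) p], Crit.Red p n m H O (residue O)) :=
  critE glStmtB isoStmt outStmt glStmt p n m

end Vale.Agent.P180.H396
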