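import Vale.Agent.P180.H396.CritB
import Vale.Agent.P180.H396.CritDef6
import Vale.Agent.P180.H392.LocF

/-!
P180: the reduction of arbitrary finite groups to exceptional components.
-/

set_option linter.all false

namespace Vale.Agent.P180.H396

open Vale.Agent.P180 Vale.Agent.P180.R2 Vale.Agent.P180.R2.H365 Vale.Agent.P180.H768.Gd
  Vale.Agent.P180.R2.H47 Vale.Agent.P180.R2.H954 Vale.Agent.P180.H392 IsLocalRing

universe u

/-- The local theorem. -/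
theorem locCritF {B B' : ℕ → ℕ → ℕ} {C : ℕ → ℕ → ℕ → ℕ} (hGL : GLStmtB.{u} B)
    (hI : IsoStmt.{u} B') (hO : OutStmt.{u} C) (hG : GlStmt) (hT : H393.ThruStmt.{u}) (p n m : ℕ) [Fact p.Prime]
    (k : Type u) [Field k] [IsAlgClosed k] [CharP k p] :
    LocL (CritF.Exc p n m) (SmallT p n ((max 1 (cE B B' C p n m)) ^ n)
      (b7 n (mB p n m) (max m 2))) k p n := by
  refine locL_mono (locF hGL hI hO hG hT p n m k) ?_
  rintro G _ _ b D L hD hL ⟨hX, h9, hLA, hIC⟩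
  refine ⟨hX, h9, ?_⟩
  rintro ⟨K, iK, fK, d, hpK, ⟨hd, hld, hT, h⟩ | ⟨θ, hT, hlin, hK9, hK, h⟩ |
    ⟨hd, hO | ⟨hsim, ho⟩⟩⟩
  · rcases linAb_of_top hL.1.1 ⟨K, iK, fK, d, hd, hpK, hld, hT, h⟩ with h0 | h0
    · exact absurd h0 (not_le.mpr h9)
    · obtain ⟨K, iK, fK, d, hd, hpK, hld, hπ, h⟩ := h0
      exact hLA ⟨K, iK, fK, d, hd, hpK, Or.inl ⟨hld, hπ, h⟩⟩
  · obtain ⟨h1, h2⟩ := isoCls_of_top hD hL.1.1 ⟨K, iK, fK, d, θ, hpK, hT, hlin, hK9, hK, h⟩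
    exact hIC ⟨h1, Or.inr h2⟩
  · exact hLA ⟨K, iK, fK, d, hd, hpK, Or.inr hO⟩
  · exact hIC ⟨⟨K, iK, fK, d, hd, hsim⟩, ho⟩

/-- **The reduction.** -/
theorem critF {B B' : ℕ → ℕ → ℕ} {C : ℕ → ℕ → ℕ → ℕ} (hGL : GLStmtB.{u} B) (hI : IsoStmt.{u} B')
    (hO : OutStmt.{u} C) (hG : GlStmt) (hT : H393.ThruStmt.{u}) (p : ℕ) [Fact p.Prime] (n m : ℕ) :
    ∃ (r : ℕ) (H : Fin r → Type) (_ : ∀ i, Group (H i)) (_ : ∀ i, Finite (H i)),
      (∀ (k : Type u) [Field k] [IsAlgClosed k] [CharP k p],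
        CritF.Red p n m H k (RingHom.id k)) ∧
      (∀ (O : Type u) [CommRing O] [IsDomain O] [IsDiscreteValuationRing O]
        [IsAdicComplete (maximalIdeal O) O] [IsAlgClosed (ResidueField O)]
        [CharP (ResidueField O) p], CritF.Red p n m H O (residue O)) := by
  obtain ⟨r, H, iG, iF, h1, h2⟩ := finalJ (uni_T p n _ _) (locCritF hGL hI hO hG hT p n m)
  refine ⟨r, H, iG, iF, ?_, ?_⟩
  · intro k _ _ _
    obtain ⟨c, hc, h⟩ := h1 k
    have hid : ∀ (G : Type) [Group G] (x : MonoidAlgebra k G),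
        MonoidAlgebra.mapRingHom G (RingHom.id k) x = x := by
      intro G _ x
      rw [MonoidAlgebra.mapRingHom_id]
      rfl
    refine ⟨c, hc, ?_⟩
    intro G _ _ b hb D hD hn
    rw [hid, or_self] at hD
    rcases h G b hb D hD hn with h | ⟨G', iG', fG', b', hb', hM, hC⟩
    · exact Or.inl h
    · exact Or.inr ⟨G', iG', fG', b', hb', hM, by rw [hid]; exact hC⟩
  · intro O _ _ _ _ _ _
    exact h2 O

end Vale.Agent.P180.H396
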