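import Vale.Agent.P180.R2.H954.Hf2
import Vale.Agent.P180.R2.H954.Hf3
import Vale.Agent.P180.R2.H954.Hf8

/-!
P180 H396: the components of a space with a form under a commutative `p`-group of isometries at a
linear prime, with the duality.
-/

set_option linter.all false

namespace Vale.Agent.P180.H396

open Module Vale.Agent.P180.R2.H854 Vale.Agent.P180.R2.H954.Hc

variable {K E : Type} [Field K] [AddCommGroup E] [Module K E] [FiniteDimensional K E] [Finite K]
  (Φ : HForm K E)

/-- **The components.** -/
theorem exists_pairs {p : ℕ} (hp : p.Prime)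
    {Q : Subgroup (SpecialLinearGroup K E)} [Finite Q] (hQp : IsPGroup p Q)
    (hKQ : (Nat.card K).Coprime (Nat.card Q)) (hQ : Q ≤ Φ.Iso)
    (hab : ∀ x ∈ Q, ∀ y ∈ Q, x * y = y * x)
    (hlin : ∀ j : ℕ, (∀ c : K, Φ.θ c = c ^ (ringChar K ^ j)) → ¬ p ∣ ringChar K ^ j + 1) :
    ∃ (T : Type) (_ : Fintype T) (f : T → End K E) (τ : T → T),
      (∀ t, f t * f t = f t) ∧ (∀ s t, s ≠ t → f s * f t = 0) ∧ (∑ t, f t = 1) ∧
      (∀ t, f t ≠ 0) ∧
      (∀ t (x : MonoidAlgebra K Q), act Q x * f t = 0 ∨ ∃ y, act Q y * act Q x * f t = f t) ∧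
      (∀ t, τ (τ t) = t) ∧ (∀ t, Φ.adj (f t) = f (τ t)) ∧
      (∀ t, τ t = t ↔ ∀ q ∈ Q, toEnd q * f t = f t) ∧
      (∀ t, ∀ a : End K E, (∀ q ∈ Q, a * toEnd q = toEnd q * a) → a * f t = f t * a) ∧
      Fintype.card T ≤ Nat.card Q := by
  classical
  obtain ⟨T, hT, ε, h1, h2, h3, h4, h5, h6⟩ := exists_core Q hKQ hab
  set s := st Φ.θ Q hab with hs
  have hss : ∀ x, s (s x) = x := fun x => st_st Φ.θθ hab x
  have hcomm : ∀ x y : MonoidAlgebra K Q, x * y = y * x := by
    intro x y
    induction x using MonoidAlgebra.induction_linear with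
    | zero => simp
    | add x x' hx hx' => rw [add_mul, mul_add, hx, hx']
    | single q c =>
      induction y using MonoidAlgebra.induction_linear with
      | zero => simp
      | add y y' hy hy' => rw [mul_add, add_mul, hy, hy']
      | single q' c' =>
        rw [MonoidAlgebra.single_mul_single, MonoidAlgebra.single_mul_single, mul_comm c]
        congr 1
        exact Subtype.ext (hab _ q.2 _ q'.2)
  -- primitivity
  have hprim : ∀ t, ∀ c, c * c = c → c * ε t = 0 ∨ c * ε t = ε t := by
    intro t c hc
    obtain ⟨F, _, _, π, hπ, hπ0⟩ := h5 t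
    have g1 : π c * (π c - 1) = 0 := by
      rw [mul_sub, mul_one, ← map_mul, hc, sub_self]
    rcases mul_eq_zero.mp g1 with h | h
    · left
      exact (hπ0 c).mp h
    · right
      have g2 : π (c - 1) = 0 := by rw [map_sub, map_one]; exact h
      rw [hπ0, sub_mul, one_mul, sub_eq_zero] at g2
      exact g2
  have hfield : ∀ t, ∀ x, x * ε t = 0 ∨ ∃ y, y * x * ε t = ε t := by
    intro t x
    obtain ⟨F, _, _, π, hπ, hπ0⟩ := h5 t
    by_cases hx : π x = 0
    · left
      exact (hπ0 x).mp hx
    · right
      obtain ⟨y, hy⟩ := hπ (π x)⁻¹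
      refine ⟨y, ?_⟩
      have g1 : π (y * x - 1) = 0 := by
        rw [map_sub, map_mul, hy, inv_mul_cancel₀ hx, map_one, sub_self]
      rw [hπ0, sub_mul, one_mul, sub_eq_zero] at g1
      exact g1
  -- duality
  have hdual : ∀ t, ∃ t', s (ε t) = ε t' := by
    intro t
    apply h6
    · rw [← map_mul, h1]
    · rw [← adj_act Φ hQ hab]
      intro h
      apply h4 t
      have := Φ.adj_adj (act Q (ε t))
      rw [h, Φ.adj_zero] at this
      exact this.symm
    · intro c hc
      rcases hprim t (s c) (by rw [← map_mul, hc]) with h | h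
      · left
        have := congrArg s h
        rw [map_mul, hss, map_zero] at this
        exact this
      · right
        have := congrArg s h
        rw [map_mul, hss] at this
        exact this
  choose τ hτ using hdual
  have hεinj : Function.Injective ε := by
    intro t t' h
    by_contra hne
    have := h2 t t' hne
    rw [← h, h1] at this
    exact h4 t (by rw [this, map_zero])
  have hττ : ∀ t, τ (τ t) = t := by
    intro t
    apply hεinj
    rw [← hτ, ← hτ, hss]
  -- the fixed points
  have htriv : ∀ t, τ t = t → ∀ q : Q, MonoidAlgebra.single q (1 : K) * ε t = ε t := by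
    intro t ht q
    obtain ⟨F, _, _, π, hπ, hπ0⟩ := h5 t
    have hker : ∀ x, π x = 0 → π (s x) = 0 := by
      intro x hx
      rw [hπ0] at hx ⊢
      have := congrArg s hx
      rw [map_mul, hτ, ht, map_zero] at this
      exact this
    let σ : F →+* F := RingHom.liftOfSurjective (f := π) hπ ⟨π.comp s, fun x hx => by
      rw [RingHom.mem_ker] at hx ⊢
      exact hker x hx⟩
    have hσ : ∀ x, σ (π x) = π (s x) := fun x =>
      RingHom.liftOfRightInverse_comp_apply _ _ _ _ _
    have hchar : CharP F (ringChar K) := by
      have g1 : CharP K (ringChar K) := ringChar.charP K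
      exact charP_of_injective_ringHom
        (f := π.comp (MonoidAlgebra.singleOneRingHom (R := K) (M := Q)))
        (RingHom.injective _) (ringChar K)
    have : Fact (ringChar K).Prime := ⟨ringChar_prime⟩
    obtain ⟨j, hj⟩ := exists_frob (r := ringChar K) σ
    set u : F := π (MonoidAlgebra.single q 1) with hu
    have hu0 : u * π (MonoidAlgebra.single q⁻¹ 1) = 1 := by
      rw [hu, ← map_mul, MonoidAlgebra.single_mul_single, mul_inv_cancel, one_mul,
        ← MonoidAlgebra.one_def, map_one]
    have hσu : σ u * u = 1 := by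
      rw [hu, hσ, hs, st_single, map_one, mul_comm]
      exact hu0
    have hθj : ∀ c : K, Φ.θ c = c ^ (ringChar K ^ j) := by
      intro c
      have g1 := hj (π (MonoidAlgebra.single 1 c))
      rw [hσ, hs, st_single, inv_one, ← map_pow, MonoidAlgebra.single_pow, one_pow] at g1
      have g2 : Function.Injective
          (π.comp (MonoidAlgebra.singleOneRingHom (R := K) (M := Q))) := RingHom.injective _
      exact g2 g1
    have hpj := hlin j hθj
    have hu1 : u ^ (ringChar K ^ j + 1) = 1 := by
      rw [pow_succ, ← hj, hσu]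
    obtain ⟨m, hm⟩ := hQp q
    have hu2 : u ^ (p ^ m) = 1 := by
      rw [hu, ← map_pow, MonoidAlgebra.single_pow, hm, one_pow, ← MonoidAlgebra.one_def, map_one]
    have hu3 : u = 1 := by
      have g1 : orderOf u = 1 := by
        refine Nat.eq_one_of_dvd_coprimes (a := p ^ m) (b := ringChar K ^ j + 1) ?_
          (orderOf_dvd_of_pow_eq_one hu2) (orderOf_dvd_of_pow_eq_one hu1)
        exact Nat.Coprime.pow_left _ ((Nat.Prime.coprime_iff_not_dvd hp).mpr hpj)
      exact orderOf_eq_one_iff.mp g1
    have g3 : π (MonoidAlgebra.single q 1 - 1) = 0 := by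
      rw [map_sub, map_one, sub_eq_zero]
      exact hu3
    rw [hπ0, sub_mul, one_mul, sub_eq_zero] at g3
    exact g3
  -- the trivial component is selfdual
  have hback : ∀ t, (∀ q ∈ Q, toEnd q * act Q (ε t) = act Q (ε t)) → τ t = t := by
    intro t ht
    have g0 : ∀ q : Q, MonoidAlgebra.single q (1 : K) * ε t = ε t := by
      intro q
      rcases hfield t (MonoidAlgebra.single q 1 - 1) with h | ⟨y, hy⟩
      · rw [sub_mul, one_mul, sub_eq_zero] at h
        exact h
      · exfalso
        apply h4 t
        have g1 := congrArg (act Q) hy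
        have g2 : act Q (MonoidAlgebra.single q (1 : K) - 1) * act Q (ε t) = 0 := by
          rw [map_sub, map_one, act_single, one_smul, sub_mul, one_mul, ht q q.2, sub_self]
        rw [map_mul, map_mul, mul_assoc, g2, mul_zero] at g1
        exact g1.symm
    have g1 : ∀ q : Q, MonoidAlgebra.single q (1 : K) * ε (τ t) = ε (τ t) := by
      intro q
      have := congrArg s (g0 q⁻¹)
      rw [map_mul, hτ, hs, st_single, inv_inv, map_one] at this
      exact this
    by_contra hne
    let aug : MonoidAlgebra K Q →ₐ[K] K := MonoidAlgebra.lift K K Q 1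
    have haug : ∀ t, (∀ q : Q, MonoidAlgebra.single q (1 : K) * ε t = ε t) →
        ∀ x, x * ε t = aug x • ε t := by
      intro t ht x
      induction x using MonoidAlgebra.induction_linear with
      | zero => rw [zero_mul, map_zero, zero_smul]
      | add x y hx hy => rw [add_mul, map_add, add_smul, hx, hy]
      | single q c =>
        have g1 : MonoidAlgebra.single q c = c • MonoidAlgebra.single q (1 : K) := by
          rw [MonoidAlgebra.smul_single, smul_eq_mul, mul_one]
        have g2 : aug (MonoidAlgebra.single q (1 : K)) = 1 := by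
          change MonoidAlgebra.lift K K Q 1 (MonoidAlgebra.single q 1) = 1
          rw [MonoidAlgebra.lift_single, one_smul]
          rfl
        rw [g1, smul_mul_assoc, ht q, map_smul, g2, smul_eq_mul, mul_one]
    have hεne : ∀ t, ε t ≠ 0 := fun t h => h4 t (by rw [h, map_zero])
    have g2 : aug (ε (τ t)) = 0 := by
      have := haug t g0 (ε (τ t))
      rw [h2 _ _ hne] at this
      exact (smul_eq_zero.mp this.symm).resolve_right (hεne t)
    have g3 := haug (τ t) g1 (ε (τ t))
    rw [h1, g2, zero_smul] at g3
    exact hεne _ g3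
  refine ⟨T, hT, fun t => act Q (ε t), τ, ?_, ?_, h3, h4, ?_, hττ, ?_, ?_, ?_, ?_⟩
  · intro t
    rw [← map_mul, h1]
  · intro t t' htt
    rw [← map_mul, h2 _ _ htt, map_zero]
  · intro t x
    rcases hfield t x with h | ⟨y, hy⟩
    · left
      rw [← map_mul, h, map_zero]
    · right
      exact ⟨y, by rw [← map_mul, ← map_mul, hy]⟩
  · intro t
    rw [adj_act Φ hQ hab, ← hs, hτ]
  · intro t
    refine ⟨fun ht q hq => ?_, hback t⟩
    have g1 := congrArg (act Q) (htriv t ht ⟨q, hq⟩)
    rw [map_mul, act_single, one_smul] at g1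
    exact g1
  · intro t a ha
    have key : ∀ x : MonoidAlgebra K Q, a * act Q x = act Q x * a := by
      intro x
      induction x using MonoidAlgebra.induction_linear with
      | zero => simp
      | add x y hx hy => rw [map_add, mul_add, add_mul, hx, hy]
      | single q c => rw [act_single, mul_smul_comm, smul_mul_assoc, ha q q.2]
    exact key _
  · have hfr : finrank K (MonoidAlgebra K Q) = Nat.card Q := by
      have := Fintype.ofFinite Q
      rw [(MonoidAlgebra.coeffLinearEquiv K (M := Q) (S := K)).finrank_eq,
        Module.finrank_finsupp_self, Nat.card_eq_fintype_card]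
    have hfd : FiniteDimensional K (MonoidAlgebra K Q) :=
      Module.Finite.equiv (MonoidAlgebra.coeffLinearEquiv K (M := Q) (S := K)).symm
    have hli : LinearIndependent K ε := by
      rw [Fintype.linearIndependent_iff]
      intro g hg t
      have g1 : (∑ t', g t' • ε t') * ε t = g t • ε t := by
        rw [Finset.sum_mul, Finset.sum_eq_single t]
        · rw [smul_mul_assoc, h1]
        · intro t' _ ht'
          rw [smul_mul_assoc, h2 _ _ ht', smul_zero]
        · intro h
          exact absurd (Finset.mem_univ t) h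
      rw [hg, zero_mul] at g1
      exact (smul_eq_zero.mp g1.symm).resolve_right (fun h => h4 t (by rw [h, map_zero]))
    have g1 := hli.fintype_card_le_finrank
    rwa [hfr] at g1

end Vale.Agent.P180.H396
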