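import Vale.Agent.P180.H396.GeoC
import Vale.Agent.P180.H396.GeoD
import Vale.Agent.P180.H951.Pd

/-!
P180 H396: **the existence of the decomposition** of a space with a form under a commutative
`p`-group of isometries at a linear prime, with at most `|Q|` pairs.
-/

set_option linter.all false

namespace Vale.Agent.P180.H396

open Module Vale.Agent.P180.R2.H854 Vale.Agent.P180.H393.Fm Vale.Agent.P180.H951

variable {K E : Type} [Field K] [AddCommGroup E] [Module K E] {Φ : HForm K E}
variable [FiniteDimensional K E] [Finite K]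

/-- **Existence of the decomposition.** -/
theorem exists_pd {p : ℕ} (hp : p.Prime) (hK : ¬ p ∣ Nat.card K)
    (hlin : ∀ j : ℕ, (∀ c : K, Φ.θ c = c ^ (ringChar K ^ j)) → ¬ p ∣ ringChar K ^ j + 1)
    {Q : Subgroup (E ≃ₗ[K] E)} (hQG : Q ≤ IsoG Φ) (hQp : IsPGroup p Q)
    (hab : ∀ x ∈ Q, ∀ y ∈ Q, x * y = y * x) :
    ∃ r ≤ Nat.card Q, Nonempty (PD Φ Q r) := by
  classical
  have hfE : Finite E := Module.finite_of_finite K
  have hfin : Finite (E ≃ₗ[K] E) :=
    Finite.of_injective (fun g : E ≃ₗ[K] E => (g : E → E)) DFunLike.coe_injective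
  let ν : SpecialLinearGroup K E →* (E ≃ₗ[K] E) :=
    SpecialLinearGroup.toLinearEquiv (R := K) (V := E)
  have hνi : Function.Injective ν := SpecialLinearGroup.toLinearEquiv_injective
  have hfSL : Finite (SpecialLinearGroup K E) := Finite.of_injective ν hνi
  set Q' : Subgroup (SpecialLinearGroup K E) := Q.comap ν with hQ'
  have hQQ : ∀ q ∈ Q, ∃ q' ∈ Q', ν q' = q := by
    intro q hq
    obtain ⟨m, hm⟩ := hQp ⟨q, hq⟩
    have hm' : q ^ p ^ m = 1 := congrArg Subtype.val hm
    have h1 : LinearEquiv.det q = 1 := by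
      apply Units.ext
      rw [LinearEquiv.coe_det]
      exact det_eq_one hp hK hlin (hQG hq) hm'
    exact ⟨⟨q, h1⟩, hq, rfl⟩
  have hQ'I : Q' ≤ Φ.Iso := fun q hq => hQG hq
  have hQ'p : IsPGroup p Q' := hQp.comap_of_injective ν hνi
  have hab' : ∀ x ∈ Q', ∀ y ∈ Q', x * y = y * x := fun x hx y hy => hνi (by
    rw [map_mul, map_mul]
    exact hab _ hx _ hy)
  have hpF : Fact p.Prime := ⟨hp⟩
  obtain ⟨l, hl⟩ := IsPGroup.iff_card.mp hQ'p
  have hcop : (Nat.card K).Coprime (Nat.card Q') := by
    rw [hl]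
    exact (Nat.Coprime.pow_left l ((Nat.Prime.coprime_iff_not_dvd hp).mpr hK)).symm
  have hcard : Nat.card Q' = Nat.card Q := by
    refine Nat.card_congr (Equiv.ofBijective (fun q : Q' => (⟨ν q, q.2⟩ : Q)) ⟨?_, ?_⟩)
    · intro q q' h
      exact Subtype.ext (hνi (congrArg (fun z : Q => (z : E ≃ₗ[K] E)) h))
    · rintro ⟨q, hq⟩
      obtain ⟨q', hq', rfl⟩ := hQQ q hq
      exact ⟨⟨q', hq'⟩, rfl⟩
  obtain ⟨T, hT, f, τ, h1, h2, h3, h4, h5, h6, h7, h8, h9, h10⟩ :=
    exists_pairs Φ hp hQ'p hcop hQ'I hab' hlin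
  -- one component of each pair
  let ν' := Fintype.equivFin T
  let T' := {t : T // ν' t < ν' (τ t)}
  let c := Fintype.equivFin T'
  have hT'ne : ∀ t : T', τ t.1 ≠ t.1 := by
    intro t h
    have := t.2
    rw [h] at this
    exact lt_irrefl _ this
  have hpair : ∀ t t' : T', τ t.1 ≠ t'.1 := by
    intro t t' h
    have g1 := t.2
    have g2 := t'.2
    rw [← h, h6] at g2
    exact lt_asymm g1 g2
  -- elements of the span
  have hspan : ∀ x ∈ Submodule.span K (Set.range fun q : Q => tE (q : E ≃ₗ[K] E)),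
      ∃ y : MonoidAlgebra K Q', Vale.Agent.P180.R2.H954.Hc.act Q' y = x := by
    intro x hx
    induction hx using Submodule.span_induction with
    | mem x hx =>
      obtain ⟨⟨q, hq⟩, rfl⟩ := hx
      obtain ⟨q', hq', rfl⟩ := hQQ q hq
      refine ⟨MonoidAlgebra.single ⟨q', hq'⟩ 1, ?_⟩
      rw [Vale.Agent.P180.R2.H954.Hc.act_single, one_smul]
      rfl
    | zero => exact ⟨0, map_zero _⟩
    | add X Y _ _ hX hY =>
      obtain ⟨x, rfl⟩ := hX
      obtain ⟨y, rfl⟩ := hY
      exact ⟨x + y, map_add _ _ _⟩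
    | smul c X _ hX =>
      obtain ⟨x, rfl⟩ := hX
      exact ⟨c • x, map_smul _ _ _⟩
  have hr : Fintype.card T' ≤ Nat.card Q := by
    rw [← hcard]
    exact (Fintype.card_le_of_injective (fun t : T' => t.1) Subtype.val_injective).trans h10
  refine ⟨Fintype.card T', hr, ⟨?_⟩⟩
  refine
    { e := fun i => f (c.symm i).1
      idem := fun i => h1 _
      orth := fun i j hij => h2 _ _ fun h => hij (c.symm.injective (Subtype.ext h))
      iso := fun i j => ?_
      iso' := fun i j => ?_
      comm := fun a ha i => ?_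
      hom := fun i x hx => ?_
      nt := fun i => ?_
      triv := fun v hv hv' q hq => ?_ }
  · rw [h7]
    exact h2 _ _ (hpair _ _)
  · rw [h7]
    exact h2 _ _ (hpair _ _).symm
  · exact h9 _ a fun q hq => ha (ν q) hq
  · obtain ⟨y, rfl⟩ := hspan x hx
    rcases h5 (c.symm i).1 y with h | ⟨z, hz⟩
    · left
      exact h
    · right
      intro w hw
      have g1 := congrArg (fun a : End K E => a w) hz
      change Vale.Agent.P180.R2.H954.Hc.act Q' z (Vale.Agent.P180.R2.H954.Hc.act Q' y
        (f (c.symm i).1 w)) = f (c.symm i).1 w at g1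
      rw [hw, map_zero] at g1
      exact g1.symm
  · by_contra hcon
    push Not at hcon
    exact hT'ne (c.symm i) ((h8 _).mpr fun q hq => hcon (ν q) hq)
  · -- triviality
    have hz : ∀ t, τ t ≠ t → f t v = 0 := by
      intro t ht
      have hlt : ν' t < ν' (τ t) ∨ ν' (τ t) < ν' t :=
        lt_or_gt_of_ne fun h => ht (ν'.injective h).symm
      rcases hlt with h | h
      · have := hv (c ⟨t, h⟩)
        rwa [Equiv.symm_apply_apply] at this
      · have g1 : ν' (τ t) < ν' (τ (τ t)) := by rw [h6]; exact h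
        have := hv' (c ⟨τ t, g1⟩)
        rw [Equiv.symm_apply_apply, h7] at this
        change f (τ (τ t)) v = 0 at this
        rwa [h6] at this
    obtain ⟨q', hq', rfl⟩ := hQQ q hq
    have hsum : v = ∑ t, f t v := by
      have g1 := congrArg (fun a : End K E => a v) h3
      change (∑ t, f t) v = v at g1
      rw [LinearMap.sum_apply] at g1
      exact g1.symm
    rw [hsum, map_sum]
    refine Finset.sum_congr rfl fun t _ => ?_
    by_cases ht : τ t = t
    · exact congrArg (fun a : End K E => a v) ((h8 t).mp ht q' hq')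
    · rw [hz t ht, map_zero]

end Vale.Agent.P180.H396
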